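import Vale.Agent.P141.PL.Defs

/-!
# P141, line (A): nested families of squares with a packing condition

`Q k m n` : a predicate on the squares of scale `k` (cell `m` × cell `n`). `cntQ` counts the
squares of the family containing a square. If the family has packing `B` below every square then
the part of the family of generation larger than `lam` has mass `≤ B (1 - 1 / B) ^ lam 4 ^ K`.
-/

namespace Vale.Agent.P141.H295

open Finset
open Vale.Agent.P141.PL (iv ix mem_iv ix_ix ix_zero)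

noncomputable section

open scoped Classical

variable {Q : ℕ → ℤ → ℤ → Prop}

/-- number of squares of the family of scales `k ≤ j ≤ K` containing the square `(k, m, n)` -/
def cntQ (Q : ℕ → ℤ → ℤ → Prop) (K k : ℕ) (m n : ℤ) : ℕ :=
  ((Icc k K).filter fun j => Q j (ix (j - k) m) (ix (j - k) n)).card

/-- mass of the squares of the family with at least `i` squares (`a` of them above the root) -/
def fl (Q : ℕ → ℤ → ℤ → Prop) (i k : ℕ) (m n : ℤ) (a : ℕ) : ℝ :=
  ∑ j ∈ range (k + 1), ∑ m' ∈ iv (k - j) m, ∑ n' ∈ iv (k - j) n,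
    if Q j m' n' ∧ i ≤ a + cntQ Q k j m' n' then (4 : ℝ) ^ j else 0

/-- mass of the family below a square -/
def ms (Q : ℕ → ℤ → ℤ → Prop) (k : ℕ) (m n : ℤ) : ℝ :=
  ∑ j ∈ range (k + 1), ∑ m' ∈ iv (k - j) m, ∑ n' ∈ iv (k - j) n,
    if Q j m' n' then (4 : ℝ) ^ j else 0

theorem sum_iv_two (k : ℕ) (m : ℤ) (f : ℤ → ℝ) :
    ∑ x ∈ iv (k + 1) m, f x = ∑ x ∈ iv k (2 * m), f x + ∑ x ∈ iv k (2 * m + 1), f x := by
  have h : iv (k + 1) m = iv k (2 * m) ∪ iv k (2 * m + 1) := by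
    have h2 : (0 : ℤ) < 2 ^ k := by positivity
    ext x
    simp only [iv, mem_union, mem_Ico, pow_succ]
    constructor
    · rintro ⟨h, h'⟩
      rcases lt_or_ge x (2 ^ k * (2 * m) + 2 ^ k) with h3 | h3
      · left
        constructor
        · nlinarith
        · exact h3
      · right
        constructor
        · nlinarith
        · nlinarith
    · rintro (⟨h, h'⟩ | ⟨h, h'⟩)
      · constructor <;> nlinarith
      · constructor <;> nlinarith
  have hd : Disjoint (iv k (2 * m)) (iv k (2 * m + 1)) := by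
    rw [disjoint_left]
    intro x hx hx'
    rw [mem_iv] at hx hx'
    omega
  rw [h, sum_union hd]

theorem iv_zero (m : ℤ) : iv 0 m = {m} := by
  ext x
  rw [mem_iv, ix_zero, mem_singleton]

/-- The two-dimensional splitting of a sum over a subtree. -/
theorem sum_tree (k : ℕ) (m n : ℤ) (f : ℕ → ℤ → ℤ → ℝ) :
    ∑ j ∈ range (k + 1 + 1), ∑ m' ∈ iv (k + 1 - j) m, ∑ n' ∈ iv (k + 1 - j) n, f j m' n' =
      f (k + 1) m n +
        (∑ j ∈ range (k + 1), ∑ m' ∈ iv (k - j) (2 * m), ∑ n' ∈ iv (k - j) (2 * n), f j m' n' +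
        ∑ j ∈ range (k + 1), ∑ m' ∈ iv (k - j) (2 * m), ∑ n' ∈ iv (k - j) (2 * n + 1), f j m' n' +
        (∑ j ∈ range (k + 1), ∑ m' ∈ iv (k - j) (2 * m + 1), ∑ n' ∈ iv (k - j) (2 * n), f j m' n' +
        ∑ j ∈ range (k + 1), ∑ m' ∈ iv (k - j) (2 * m + 1), ∑ n' ∈ iv (k - j) (2 * n + 1),
          f j m' n')) := by
  rw [sum_range_succ, add_comm]
  congr 1
  · rw [Nat.sub_self, iv_zero, iv_zero, sum_singleton, sum_singleton]
  · rw [← sum_add_distrib, ← sum_add_distrib, ← sum_add_distrib]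
    refine sum_congr rfl fun j hj => ?_
    have hj' : j ≤ k := by have := mem_range.1 hj; omega
    rw [show k + 1 - j = (k - j) + 1 by omega, sum_iv_two]
    congr 1
    · rw [← sum_add_distrib]
      exact sum_congr rfl fun m' _ => sum_iv_two _ _ _
    · rw [← sum_add_distrib]
      exact sum_congr rfl fun m' _ => sum_iv_two _ _ _

theorem cntQ_succ {k j : ℕ} (hj : j ≤ k) {m n m' n' : ℤ} (hm : ix (k + 1 - j) m' = m)
    (hn : ix (k + 1 - j) n' = n) :
    cntQ Q (k + 1) j m' n' = cntQ Q k j m' n' + if Q (k + 1) m n then 1 else 0 := by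
  unfold cntQ
  rw [show Icc j (k + 1) = insert (k + 1) (Icc j k) from ?_, filter_insert, hm, hn]
  · split_ifs with h
    · rw [card_insert_of_notMem]
      simp
    · rfl
  · ext x
    simp only [mem_Icc, mem_insert]
    omega

theorem cntQ_self (k : ℕ) (m n : ℤ) : cntQ Q k k m n = if Q k m n then 1 else 0 := by
  unfold cntQ
  rw [Icc_self, filter_singleton, Nat.sub_self, ix_zero, ix_zero]
  split_ifs <;> simp

theorem child_ix {k j : ℕ} (hj : j ≤ k) {m m' : ℤ} (h : m' ∈ iv (k - j) (2 * m) ∨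
    m' ∈ iv (k - j) (2 * m + 1)) : ix (k + 1 - j) m' = m := by
  have e : ix (k + 1 - j) m' = ix 1 (ix (k - j) m') := by
    rw [ix_ix]
    congr 1
    omega
  rw [e]
  rcases h with h | h
  · rw [mem_iv.1 h]
    unfold ix
    omega
  · rw [mem_iv.1 h]
    unfold ix
    omega

/-- Recursion of `fl`. -/
theorem fl_succ (i k : ℕ) (m n : ℤ) (a : ℕ) :
    fl Q i (k + 1) m n a = (if Q (k + 1) m n ∧ i ≤ a + 1 then (4 : ℝ) ^ (k + 1) else 0) +
      (fl Q i k (2 * m) (2 * n) (a + if Q (k + 1) m n then 1 else 0) +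
        fl Q i k (2 * m) (2 * n + 1) (a + if Q (k + 1) m n then 1 else 0) +
        (fl Q i k (2 * m + 1) (2 * n) (a + if Q (k + 1) m n then 1 else 0) +
        fl Q i k (2 * m + 1) (2 * n + 1) (a + if Q (k + 1) m n then 1 else 0))) := by
  unfold fl
  rw [sum_tree k m n fun j m' n' => if Q j m' n' ∧ i ≤ a + cntQ Q (k + 1) j m' n' then
    (4 : ℝ) ^ j else 0]
  have key : ∀ m1 n1 : ℤ, (m1 = 2 * m ∨ m1 = 2 * m + 1) → (n1 = 2 * n ∨ n1 = 2 * n + 1) →
      ∑ j ∈ range (k + 1), ∑ m' ∈ iv (k - j) m1, ∑ n' ∈ iv (k - j) n1,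
        (if Q j m' n' ∧ i ≤ a + cntQ Q (k + 1) j m' n' then (4 : ℝ) ^ j else 0) =
      ∑ j ∈ range (k + 1), ∑ m' ∈ iv (k - j) m1, ∑ n' ∈ iv (k - j) n1,
        (if Q j m' n' ∧ i ≤ (a + if Q (k + 1) m n then 1 else 0) + cntQ Q k j m' n' then
          (4 : ℝ) ^ j else 0) := by
    intro m1 n1 h1 h2
    refine sum_congr rfl fun j hj => sum_congr rfl fun m' hm' => sum_congr rfl fun n' hn' => ?_
    have hj' : j ≤ k := by have := mem_range.1 hj; omega
    have e1 : ix (k + 1 - j) m' = m := child_ix hj' (by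
      rcases h1 with rfl | rfl
      · exact Or.inl hm'
      · exact Or.inr hm')
    have e2 : ix (k + 1 - j) n' = n := child_ix hj' (by
      rcases h2 with rfl | rfl
      · exact Or.inl hn'
      · exact Or.inr hn')
    rw [cntQ_succ hj' e1 e2]
    rw [show a + (cntQ Q k j m' n' + if Q (k + 1) m n then 1 else 0) =
      (a + if Q (k + 1) m n then 1 else 0) + cntQ Q k j m' n' by ring]
  rw [key _ _ (Or.inl rfl) (Or.inl rfl), key _ _ (Or.inl rfl) (Or.inr rfl),
    key _ _ (Or.inr rfl) (Or.inl rfl), key _ _ (Or.inr rfl) (Or.inr rfl)]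
  congr 1
  rw [cntQ_self]
  by_cases h : Q (k + 1) m n
  · simp [h]
  · simp [h]

theorem fl_zero (i : ℕ) (m n : ℤ) (a : ℕ) :
    fl Q i 0 m n a = if Q 0 m n ∧ i ≤ a + 1 then (1 : ℝ) else 0 := by
  unfold fl
  simp only [zero_add, range_one, sum_singleton, Nat.sub_self, iv_zero, pow_zero]
  rw [cntQ_self]
  by_cases h : Q 0 m n
  · simp [h]
  · simp [h]

theorem ms_succ (k : ℕ) (m n : ℤ) :
    ms Q (k + 1) m n = (if Q (k + 1) m n then (4 : ℝ) ^ (k + 1) else 0) +
      (ms Q k (2 * m) (2 * n) + ms Q k (2 * m) (2 * n + 1) +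
        (ms Q k (2 * m + 1) (2 * n) + ms Q k (2 * m + 1) (2 * n + 1))) :=
  sum_tree k m n fun j m' n' => if Q j m' n' then (4 : ℝ) ^ j else 0

theorem ms_zero (m n : ℤ) : ms Q 0 m n = if Q 0 m n then (1 : ℝ) else 0 := by
  unfold ms
  simp only [zero_add, range_one, sum_singleton, Nat.sub_self, iv_zero, pow_zero]

/-- everything counts if `i ≤ a + 1` -/
theorem fl_eq_ms (i : ℕ) : ∀ (k : ℕ) (m n : ℤ) (a : ℕ), i ≤ a + 1 → fl Q i k m n a = ms Q k m n
  | 0, m, n, a, h => by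
    rw [fl_zero, ms_zero]
    by_cases hq : Q 0 m n
    · simp [hq, h]
    · simp [hq]
  | k + 1, m, n, a, h => by
    have h' : i ≤ (a + if Q (k + 1) m n then 1 else 0) + 1 := by omega
    rw [fl_succ, ms_succ, fl_eq_ms i k _ _ _ h', fl_eq_ms i k _ _ _ h', fl_eq_ms i k _ _ _ h',
      fl_eq_ms i k _ _ _ h']
    by_cases hq : Q (k + 1) m n
    · simp [hq, h]
    · simp [hq]

/-- packing `B` at all squares of scale `k` of a root and their descendants -/
def PkB (Q : ℕ → ℤ → ℤ → Prop) (B : ℝ) (K : ℕ) (R S : ℤ) : Prop :=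
  ∀ k ≤ K, ∀ m ∈ iv (K - k) R, ∀ n ∈ iv (K - k) S, ms Q k m n ≤ B * 4 ^ k

theorem PkB.child {B : ℝ} {K : ℕ} {R S : ℤ} (h : PkB Q B (K + 1) R S) {m n : ℤ}
    (hm : m = 2 * R ∨ m = 2 * R + 1) (hn : n = 2 * S ∨ n = 2 * S + 1) : PkB Q B K m n := by
  intro k hk m' hm' n' hn'
  refine h k (by omega) m' ?_ n' ?_
  · rw [mem_iv]
    refine child_ix hk ?_
    rcases hm with rfl | rfl
    · exact Or.inl hm'
    · exact Or.inr hm'
  · rw [mem_iv]
    refine child_ix hk ?_
    rcases hn with rfl | rfl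
    · exact Or.inl hn'
    · exact Or.inr hn'

theorem PkB.self {B : ℝ} {K : ℕ} {R S : ℤ} (h : PkB Q B K R S) : ms Q K R S ≤ B * 4 ^ K :=
  h K le_rfl R (by rw [Nat.sub_self, iv_zero, mem_singleton]) S
    (by rw [Nat.sub_self, iv_zero, mem_singleton])

/-- One generation. -/
theorem fl_step {B : ℝ} (hB : 1 ≤ B) (i : ℕ) : ∀ (k : ℕ) (m n : ℤ) (a : ℕ), a < i →
    PkB Q B k m n → fl Q (i + 1) k m n a ≤ (B - 1) * (fl Q i k m n a - fl Q (i + 1) k m n a)
  | 0, m, n, a, h, _ => by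
    rw [fl_zero, fl_zero]
    have h1 : ¬ (i + 1 ≤ a + 1) := by omega
    by_cases hq : Q 0 m n
    · by_cases h2 : i ≤ a + 1
      · simp [hq, h1, h2]
        linarith
      · simp [hq, h1, h2]
    · simp [hq]
  | k + 1, m, n, a, h, hP => by
    have h1 : ¬ (i + 1 ≤ a + 1) := by omega
    by_cases hq : Q (k + 1) m n
    · by_cases h2 : i ≤ a + 1
      · have e1 : fl Q i (k + 1) m n a = ms Q (k + 1) m n := fl_eq_ms i _ _ _ _ h2
        have e2 : fl Q (i + 1) (k + 1) m n a = ms Q (k + 1) m n - 4 ^ (k + 1) := by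
          have h' : i + 1 ≤ (a + if Q (k + 1) m n then 1 else 0) + 1 := by
            rw [if_pos hq]
            omega
          have e0 : (if Q (k + 1) m n ∧ i + 1 ≤ a + 1 then (4 : ℝ) ^ (k + 1) else 0) = 0 :=
            if_neg fun h => h1 h.2
          have e3 : (if Q (k + 1) m n then (4 : ℝ) ^ (k + 1) else 0) = 4 ^ (k + 1) := if_pos hq
          rw [fl_succ, ms_succ, fl_eq_ms _ k _ _ _ h', fl_eq_ms _ k _ _ _ h',
            fl_eq_ms _ k _ _ _ h', fl_eq_ms _ k _ _ _ h', e0, e3]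
          ring
        have h3 := hP.self
        rw [e1, e2]
        have h4 : (0 : ℝ) < 4 ^ (k + 1) := by positivity
        linarith
      · have e0 : (if Q (k + 1) m n ∧ i + 1 ≤ a + 1 then (4 : ℝ) ^ (k + 1) else 0) = 0 :=
          if_neg fun h => h1 h.2
        have e3 : (if Q (k + 1) m n ∧ i ≤ a + 1 then (4 : ℝ) ^ (k + 1) else 0) = 0 :=
          if_neg fun h => h2 h.2
        rw [fl_succ, fl_succ, e0, e3]
        have h' : (a + if Q (k + 1) m n then 1 else 0) < i := by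
          rw [if_pos hq]
          omega
        have k1 := fl_step hB i k (2 * m) (2 * n) _ h' (hP.child (Or.inl rfl) (Or.inl rfl))
        have k2 := fl_step hB i k (2 * m) (2 * n + 1) _ h' (hP.child (Or.inl rfl) (Or.inr rfl))
        have k3 := fl_step hB i k (2 * m + 1) (2 * n) _ h' (hP.child (Or.inr rfl) (Or.inl rfl))
        have k4 := fl_step hB i k (2 * m + 1) (2 * n + 1) _ h' (hP.child (Or.inr rfl) (Or.inr rfl))
        linarith
    · have e0 : (if Q (k + 1) m n ∧ i + 1 ≤ a + 1 then (4 : ℝ) ^ (k + 1) else 0) = 0 :=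
        if_neg fun h => hq h.1
      have e3 : (if Q (k + 1) m n ∧ i ≤ a + 1 then (4 : ℝ) ^ (k + 1) else 0) = 0 :=
        if_neg fun h => hq h.1
      rw [fl_succ, fl_succ, e0, e3]
      have h' : (a + if Q (k + 1) m n then 1 else 0) < i := by
        rw [if_neg hq]
        omega
      have k1 := fl_step hB i k (2 * m) (2 * n) _ h' (hP.child (Or.inl rfl) (Or.inl rfl))
      have k2 := fl_step hB i k (2 * m) (2 * n + 1) _ h' (hP.child (Or.inl rfl) (Or.inr rfl))
      have k3 := fl_step hB i k (2 * m + 1) (2 * n) _ h' (hP.child (Or.inr rfl) (Or.inl rfl))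
      have k4 := fl_step hB i k (2 * m + 1) (2 * n + 1) _ h' (hP.child (Or.inr rfl) (Or.inr rfl))
      linarith

theorem fl_pow {B : ℝ} (hB : 1 ≤ B) {K : ℕ} {R S : ℤ} (hP : PkB Q B K R S) (lam : ℕ) :
    fl Q (lam + 1) K R S 0 ≤ B * (1 - 1 / B) ^ lam * 4 ^ K := by
  have hB0 : 0 < B := by linarith
  induction lam with
  | zero =>
    rw [fl_eq_ms 1 K R S 0 le_rfl, pow_zero, mul_one]
    exact hP.self
  | succ l ih =>
    have h := fl_step hB (l + 1) K R S 0 (by omega) hP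
    have h1 : B * fl Q (l + 1 + 1) K R S 0 ≤ (B - 1) * fl Q (l + 1) K R S 0 := by linarith
    have h2 : fl Q (l + 1 + 1) K R S 0 ≤ (1 - 1 / B) * fl Q (l + 1) K R S 0 := by
      have e : (1 - 1 / B) * fl Q (l + 1) K R S 0 = ((B - 1) * fl Q (l + 1) K R S 0) / B := by
        field_simp
      rw [e, le_div_iff₀ hB0]
      linarith
    have h3 : 0 ≤ 1 - 1 / B := by
      rw [sub_nonneg, div_le_one hB0]
      exact hB
    calc fl Q (l + 1 + 1) K R S 0 ≤ (1 - 1 / B) * fl Q (l + 1) K R S 0 := h2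
      _ ≤ (1 - 1 / B) * (B * (1 - 1 / B) ^ l * 4 ^ K) := mul_le_mul_of_nonneg_left ih h3
      _ = B * (1 - 1 / B) ^ (l + 1) * 4 ^ K := by ring

/-- **(X1)** The squares of the family lying in more than `lam` squares of the family. -/
theorem pack_deep {B : ℝ} (hB : 1 ≤ B) {K : ℕ} {R S : ℤ}
    (hP : ∀ k ≤ K, ∀ m ∈ iv (K - k) R, ∀ n ∈ iv (K - k) S,
      ∑ j ∈ range (k + 1), ∑ m' ∈ iv (k - j) m, ∑ n' ∈ iv (k - j) n,
        (if Q j m' n' then (4 : ℝ) ^ j else 0) ≤ B * 4 ^ k) (lam : ℕ) :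
    ∑ j ∈ range (K + 1), ∑ m' ∈ iv (K - j) R, ∑ n' ∈ iv (K - j) S,
      (if Q j m' n' ∧ lam < cntQ Q K j m' n' then (4 : ℝ) ^ j else 0) ≤
      B * (1 - 1 / B) ^ lam * 4 ^ K := by
  refine le_trans (le_of_eq ?_) (fl_pow hB (Q := Q) hP lam)
  unfold fl
  refine sum_congr rfl fun j _ => sum_congr rfl fun m' _ => sum_congr rfl fun n' _ => ?_
  rw [zero_add]
  rfl

end

end Vale.Agent.P141.H295
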